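import Vale.Agent.P207Z.Dyn

/-!
# P207: the stable leaves are locally graphs
-/

set_option linter.all false

open Set Filter Topology Metric MeasureTheory Asymptotics
open scoped ContDiff

noncomputable section

namespace Vale.Agent.P207Z

open Vale.Agent.P207.N3 (JC)

variable {Γ X B E V : Type} [Group Γ] [Countable Γ] [MetricSpace X] [ProperSpace X]
  [MulAction Γ X] [IsIsometricSMul Γ X] [MeasurableSpace X] [BorelSpace X]
  [TopologicalSpace B] [CompactSpace B] [T2Space B] [SecondCountableTopology B] [MulAction Γ B]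
  [ContinuousConstSMul Γ B] [MeasurableSpace B] [BorelSpace B]
  [NormedAddCommGroup E] [InnerProductSpace ℝ E] [FiniteDimensional ℝ E]
  [NormedAddCommGroup V] [NormedSpace ℝ V] [FiniteDimensional ℝ V]
  {F G W : Type} [NormedAddCommGroup F] [NormedSpace ℝ F] [FiniteDimensional ℝ F]
  [NormedAddCommGroup G] [NormedSpace ℝ G] [FiniteDimensional ℝ G]
  [NormedAddCommGroup W] [NormedSpace ℝ W]

namespace Sys

variable (S : Sys Γ X B E V)

theorem snd_eq_iff {x y : X} {q : V} (h : q ∈ S.dom x y) :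
    (S.c x q).2 = S.ep y ↔ S.pU (S.τ x y q) = 0 := by
  rw [← c_τ h]
  exact S.c_S y _ (τ_ball h)

theorem ev_ne {T : Type} [TopologicalSpace T] {a b : T → X} {z : T → V} {t₀ : T}
    (ha : ContinuousAt a t₀) (hb : ContinuousAt b t₀) (hz : ContinuousAt z t₀)
    (h1 : z t₀ ∈ ball (0 : V) 1) (h : S.pt (b t₀) ≠ S.c (a t₀) (z t₀)) :
    ∀ᶠ t in 𝓝 t₀, S.pt (b t) ≠ S.c (a t) (z t) := by
  have h2 : ContinuousAt (fun p : X × V => S.c p.1 p.2) (a t₀, z t₀) :=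
    S.c_cont.continuousAt ((isOpen_univ.prod isOpen_ball).mem_nhds ⟨trivial, h1⟩)
  have h3 : ContinuousAt (fun t => S.c (a t) (z t)) t₀ :=
    ContinuousAt.comp (g := fun p : X × V => S.c p.1 p.2) (f := fun t => (a t, z t)) h2
      (ha.prodMk hz)
  exact ((S.pt_cont.continuousAt.comp hb).ne_iff_eventually_ne h3).1 h

/-- for `(x, y) ∈ N` the stable leaf of `y` is the graph of `φ (x, y)` in the ball of radius `ρ`
of the chart of `x` -/
structure LocG (ε ρ : ℝ) (N : Set (X × X)) (φ : X × X → E → E) : Prop where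
  isOpen : IsOpen N
  jc : JC φ (N ×ˢ ball 0 ρ)
  on : ∀ p ∈ N, ∀ w ∈ ball (0 : E) ρ, S.iS w + S.iU (φ p w) ∈ ball (0 : V) 1 ∧
    (S.c p.1 (S.iS w + S.iU (φ p w))).2 = S.ep p.2
  slope : ∀ p ∈ N, ∀ w ∈ ball (0 : E) ρ, ‖fderiv ℝ (φ p) w‖ ≤ ε
  uniq : ∀ p ∈ N, ∀ q ∈ ball (0 : V) ρ, (S.c p.1 q).2 = S.ep p.2 → S.pU q = φ p (S.pS q)

variable {S} {ε ρ : ℝ} {N : Set (X × X)} {φ : X × X → E → E}

theorem LocG.mono (h : S.LocG ε ρ N φ) {ρ' : ℝ} (hρ : ρ' ≤ ρ) : S.LocG ε ρ' N φ :=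
  ⟨h.isOpen, h.jc.mono (h.isOpen.prod isOpen_ball) (prod_mono subset_rfl (ball_subset_ball hρ)),
    fun p hp w hw => h.on p hp w (ball_subset_ball hρ hw),
    fun p hp w hw => h.slope p hp w (ball_subset_ball hρ hw),
    fun p hp q hq => h.uniq p hp q (ball_subset_ball hρ hq)⟩

theorem snd_smul (γ : Γ) {x : X} {η : B} {q : V} (hq : q ∈ ball (0 : V) 1) :
    (S.c (γ • x) q).2 = γ • η ↔ (S.c x q).2 = η := by
  rw [S.c_smul γ x q hq, Prod.smul_snd, smul_left_cancel_iff]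

theorem LocG.smul (h : S.LocG ε ρ N φ) (hρ : ρ ≤ 1) (γ : Γ) :
    S.LocG ε ρ {p | (γ • p.1, γ • p.2) ∈ N} fun p => φ (γ • p.1, γ • p.2) := by
  have hc : Continuous fun p : X × X => ((γ • p.1, γ • p.2) : X × X) := by fun_prop
  refine ⟨h.isOpen.preimage hc, h.jc.pullback hc, fun p hp w hw => ?_,
    fun p hp w hw => h.slope _ hp w hw, fun p hp q hq e => h.uniq _ hp q hq ?_⟩
  · obtain ⟨a1, a2⟩ := h.on _ hp w hw
    refine ⟨a1, (snd_smul γ a1).1 ?_⟩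
    rw [← S.ep_smul]
    exact a2
  · rw [S.ep_smul]
    exact (snd_smul γ (ball_subset_ball hρ hq)).2 e

theorem LocG.norm_lt (h : S.LocG ε ρ N φ) (hε : ε ≤ 1 / 4) {p : X × X} (hp : p ∈ N) {r : ℝ}
    (hr : 2 * r ≤ ρ) {z : V} (hz : z ∈ ball (0 : V) r) (e : (S.c p.1 z).2 = S.ep p.2) {w : E}
    (hw : w ∈ ball (0 : E) (2 * r)) : ‖φ p w‖ < 2 * r := by
  rw [mem_ball_zero_iff] at hz hw
  have h0 := norm_nonneg z
  have h1 := S.norm_pS_le z
  have h2 := S.norm_pU_le z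
  have h3 := h.uniq p hp z (mem_ball_zero_iff.2 (by linarith)) e
  have h4 := (convex_ball (0 : E) ρ).norm_image_sub_le_of_norm_fderiv_le (𝕜 := ℝ) (f := φ p)
    (C := 1 / 4) (fun u hu => h.jc.differentiableAt (p := (p, u)) ⟨hp, hu⟩)
    (fun u hu => (h.slope p hp u hu).trans hε) (x := S.pS z) (y := w)
    (mem_ball_zero_iff.2 (by linarith)) (mem_ball_zero_iff.2 (by linarith))
  rw [← h3] at h4
  have h5 := norm_sub_le w (S.pS z)
  have h6 := norm_le_insert' (φ p w) (S.pU z)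
  linarith

theorem exists_locG {x y : X} (h : S.pt x = S.pt y) (hε : 0 < ε) :
    ∃ ρ > 0, ∃ N φ, (x, y) ∈ N ∧ S.LocG ε ρ N φ := by
  have hd := zero_dom h
  have hem : S.em x = S.em y := congrArg Prod.fst h
  have hep : S.ep x = S.ep y := congrArg Prod.snd h
  have hH := ((jc_τ (S := S)).comp (JC.of_contDiff (Z := X × X) (S.iS.coprod S.iU).contDiff
    isOpen_univ)).clm S.pU
  have hz : (S.iS.coprod S.iU) ((0, 0) : E × E) = 0 := map_zero _
  have h1 : HasFDerivAt (fun a => S.pU (S.τ x y ((S.iS.coprod S.iU) (0, a))))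
      (S.pU ∘L fderiv ℝ (S.τ x y) 0 ∘L S.iU) 0 := by
    have a1 : HasFDerivAt (S.τ x y) (fderiv ℝ (S.τ x y) 0) (S.iU 0) := by
      rw [map_zero]; exact (differentiableAt_τ hd).hasFDerivAt
    have a2 := S.pU.hasFDerivAt.comp (0 : E) (a1.comp (0 : E) S.iU.hasFDerivAt)
    refine a2.congr_of_eventuallyEq (Eventually.of_forall fun a => ?_)
    simp
  have h2 : Function.Injective (S.pU ∘L fderiv ℝ (S.τ x y) 0 ∘L S.iU) := by
    refine (injective_iff_map_eq_zero _).2 fun a ha => ?_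
    have a1 := S.iS_add (fderiv ℝ (S.τ x y) 0 (S.iU a))
    rw [pS_fderiv_τ hem hd (map_zero _), show S.pU (fderiv ℝ (S.τ x y) 0 (S.iU a)) = 0 from ha,
      map_zero, map_zero, add_zero] at a1
    have a2 := congrArg (fun L : V →L[ℝ] V => S.pU (L (S.iU a))) (fderiv_τ_inv hd)
    simp only [ContinuousLinearMap.mul_apply, ← a1, map_zero, ContinuousLinearMap.one_apply,
      S.pU_iU] at a2
    exact a2.symm
  obtain ⟨T, φ, hφ, hT0, -, hTφ, O, hO, hO0, hOu⟩ := hH.implicit (z₀ := (x, y)) (x₀ := 0) (y₀ := 0)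
    ⟨trivial, show (S.iS.coprod S.iU) (0, 0) ∈ S.dom x y by rw [hz]; exact hd⟩ (by
      rw [h1.fderiv]
      exact ⟨(LinearEquiv.ofInjectiveEndo
        (S.pU ∘L fderiv ℝ (S.τ x y) 0 ∘L S.iU : E →L[ℝ] E).toLinearMap h2).toContinuousLinearEquiv,
        rfl⟩)
  simp only [hz, τ_zero h, map_zero] at hTφ hOu
  have e1 : ∀ᶠ u : (X × X) × V in 𝓝 ((x, y), 0),
      u ∈ S.Dm ∧ (u.1, (S.pS u.2, S.pU u.2)) ∈ O := by
    refine Eventually.and (isOpen_Dm.mem_nhds hd) ?_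
    have c1 : Continuous fun u : (X × X) × V => (u.1, (S.pS u.2, S.pU u.2)) := by fun_prop
    exact c1.continuousAt.eventually (hO.mem_nhds (by simpa using hO0))
  have hu : ∀ u : (X × X) × V, u ∈ S.Dm ∧ (u.1, (S.pS u.2, S.pU u.2)) ∈ O →
      (S.c u.1.1 u.2).2 = S.ep u.1.2 → S.pU u.2 = φ u.1 (S.pS u.2) := by
    intro u hu e
    refine (hOu _ hu.2 ?_).2.symm
    rw [ContinuousLinearMap.coprod_apply, S.iS_add]
    exact (S.snd_eq_iff hu.1).1 e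
  have e2 : φ (x, y) =ᶠ[𝓝 0] fun _ => 0 := by
    have c1 : Continuous fun w : E => (((x, y), S.iS w) : (X × X) × V) := by fun_prop
    have c2 := c1.tendsto 0
    rw [map_zero] at c2
    filter_upwards [c2.eventually e1] with w hw
    have := hu _ hw (by
      rw [← hep]; exact (S.c_S x _ (dom_ball hw.1)).2 (S.pU_iS w))
    rw [S.pU_iS, S.pS_iS] at this
    exact this.symm
  have e3 : ∀ᶠ u : (X × X) × E in 𝓝 ((x, y), 0), u ∈ T ∧ ‖fderiv ℝ (φ u.1) u.2‖ ≤ ε := by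
    refine Eventually.and (hφ.isOpen.mem_nhds hT0) ?_
    have c1 := (hφ.fderiv.continuousOn.continuousAt (hφ.isOpen.mem_nhds hT0)).norm
    refine c1.eventually (ge_mem_nhds ?_)
    show ‖fderiv ℝ (φ (x, y)) 0‖ < ε
    rw [e2.fderiv_eq]
    simpa using hε
  have e4 : ∀ᶠ u : (X × X) × V in 𝓝 ((x, y), 0),
      (u.1, S.pS u.2) ∈ T ∧ ‖fderiv ℝ (φ u.1) (S.pS u.2)‖ ≤ ε := by
    have c1 : Continuous fun u : (X × X) × V => (u.1, S.pS u.2) := by fun_prop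
    have c2 := c1.tendsto ((x, y), 0)
    rw [map_zero] at c2
    exact c2.eventually e3
  obtain ⟨N₁, hN₁, U, hU, hNU⟩ := mem_nhds_prod_iff.1 (e1.and e4)
  obtain ⟨N, hN, hNo, hxN⟩ := _root_.mem_nhds_iff.1 hN₁
  obtain ⟨ρ, hρ, hρU⟩ := Metric.mem_nhds_iff.1 hU
  have k1 : ∀ p ∈ N, ∀ w ∈ ball (0 : E) ρ, (p, w) ∈ T ∧ ‖fderiv ℝ (φ p) w‖ ≤ ε := by
    intro p hp w hw
    have := (hNU (mk_mem_prod (hN hp) (hρU (a := S.iS w) (by
      rwa [mem_ball_zero_iff, S.norm_iS, ← mem_ball_zero_iff])))).2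
    rwa [S.pS_iS] at this
  refine ⟨ρ, hρ, N, φ, hxN, hNo, hφ.mono (hNo.prod isOpen_ball) fun u hu => (k1 _ hu.1 _ hu.2).1,
    fun p hp w hw => ?_, fun p hp w hw => (k1 p hp w hw).2,
    fun p hp q hq => hu (p, q) (hNU (mk_mem_prod (hN hp) (hρU hq))).1⟩
  obtain ⟨a1, a2⟩ := hTφ _ (k1 p hp w hw).1
  have a3 : S.iS w + S.iU (φ p w) ∈ S.dom p.1 p.2 := a1.2
  exact ⟨dom_ball a3, (S.snd_eq_iff a3).2 a2⟩

variable (S)

theorem unif_locG (hε : 0 < ε) (D : ℝ) : ∃ R₀ > 0, ∀ R ≤ R₀, ∀ x y, dist x y ≤ D →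
    S.pt y ∈ S.c x '' ball 0 R → ∃ N φ, (x, y) ∈ N ∧ S.LocG ε (2 * R) N φ := by
  obtain ⟨K, hK, hKx⟩ := S.cocompact
  have h1 : ∀ᶠ t : V × ℝ in 𝓝 (0, 0), ∀ p ∈ {p : X × X | p.1 ∈ K ∧ dist p.1 p.2 ≤ D},
      S.pt p.2 = S.c p.1 t.1 → ∃ N φ, p ∈ N ∧ S.LocG ε t.2 N φ := by
    refine (isCompact_pairs hK D).eventually_forall_of_forall_eventually fun p _ => ?_
    by_cases h : S.pt p.2 = S.c p.1 0
    · obtain ⟨ρ, hρ, N, φ, a1, a2⟩ := exists_locG (x := p.1) (y := p.2) (S := S)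
        ((S.c_zero' _).symm.trans h.symm) hε
      have c1 : Continuous fun u : (V × ℝ) × (X × X) => u.1.2 := by fun_prop
      filter_upwards [continuous_snd.continuousAt.eventually (a2.isOpen.mem_nhds a1),
        c1.continuousAt.eventually (ge_mem_nhds (a := ρ) hρ)] with u b1 b2 _
      exact ⟨N, φ, b1, a2.mono b2⟩
    · filter_upwards [S.ev_ne (T := (V × ℝ) × (X × X)) (a := fun u => u.2.1) (b := fun u => u.2.2)
        (z := fun u => u.1.1) (t₀ := ((0, 0), p)) (by fun_prop) (by fun_prop) (by fun_prop)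
        (mem_ball_self one_pos) h] with u b1 b2
      exact absurd b2 b1
  obtain ⟨δ, hδ, h2⟩ := Metric.eventually_nhds_iff_ball.1 h1
  refine ⟨min (δ / 3) (1 / 2), by positivity, fun R hR x y hxy ⟨z, hz, e⟩ => ?_⟩
  have a1 := hR.trans (min_le_left _ _)
  have a2 := hR.trans (min_le_right _ _)
  rw [mem_ball_zero_iff] at hz
  have a3 := norm_nonneg z
  obtain ⟨γ, hγ⟩ := hKx x
  obtain ⟨N, φ, b1, b2⟩ := h2 (z, 2 * R) (by
      rw [← ball_prod_same]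
      exact ⟨mem_ball_zero_iff.2 (by linarith), mem_ball_zero_iff.2 (by
        rw [Real.norm_of_nonneg (by linarith)]; linarith)⟩)
    (γ • x, γ • y) ⟨hγ, (dist_smul γ x y).trans_le hxy⟩ (by
      rw [S.pt_smul, S.c_smul γ x z (mem_ball_zero_iff.2 (by linarith)), e])
  exact ⟨_, _, b1, b2.smul (by linarith) γ⟩

/-- the graph of the leaf of `η` in the chart of `x` -/
def gr (ρ : ℝ) (x : X) (η : B) (w : E) : E :=
  S.pU (Classical.epsilon fun z : V => z ∈ ball (0 : V) ρ ∧ (S.c x z).2 = η ∧ S.pS z = w)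

theorem gr_smul (hρ : ρ ≤ 1) (γ : Γ) (x : X) (η : B) : S.gr ρ (γ • x) (γ • η) = S.gr ρ x η := by
  funext w
  unfold gr
  congr 2
  funext z
  exact propext (and_congr_right fun hz =>
    and_congr_left' (snd_smul γ (ball_subset_ball hρ hz)))

variable {S} in
theorem LocG.gr_eq (h : S.LocG ε ρ N φ) {p : X × X} (hp : p ∈ N) {w : E}
    (hw : w ∈ ball (0 : E) ρ) (h1 : ‖φ p w‖ < ρ) : S.gr ρ p.1 (S.ep p.2) w = φ p w := by
  obtain ⟨a1, a2, a3⟩ := Classical.epsilon_spec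
    (p := fun z : V => z ∈ ball (0 : V) ρ ∧ (S.c p.1 z).2 = S.ep p.2 ∧ S.pS z = w)
    ⟨S.iS w + S.iU (φ p w), by
      rw [mem_ball_zero_iff, S.norm_add]; exact max_lt (mem_ball_zero_iff.1 hw) h1,
      (h.on p hp w hw).2, by rw [map_add, S.pS_iS, S.pS_iU, add_zero]⟩
  rw [gr, h.uniq p hp _ a1 a2, a3]

/-- the pairs of frames which are close, with close geodesics -/
def Om (R D : ℝ) : Set (X × X) := {p | S.pt p.2 ∈ S.c p.1 '' ball 0 R ∧ dist p.1 p.2 < D}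

theorem isOpen_Om {R : ℝ} (hR : R ≤ 1) (D : ℝ) : IsOpen (S.Om R D) := by
  have c1 : Continuous fun p : X × X => (p.1, S.pt p.2) :=
    continuous_fst.prodMk (S.pt_cont.comp continuous_snd)
  exact ((S.c_open _ isOpen_ball (ball_subset_ball hR)).preimage c1).inter
    (isOpen_lt continuous_dist continuous_const)

theorem exists_gr (hε : 0 < ε) (hε' : ε ≤ 1 / 4) (D : ℝ) : ∃ R₀ > 0, ∀ R ≤ R₀,
    S.LocG ε (2 * R) (S.Om R D) fun p => S.gr (2 * R) p.1 (S.ep p.2) := by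
  obtain ⟨R₀, hR₀, h⟩ := S.unif_locG hε D
  refine ⟨min R₀ 1, by positivity, fun R hR => ?_⟩
  have ho := S.isOpen_Om (hR.trans (min_le_right _ _)) D
  have k0 : ∀ p ∈ S.Om R D, ∃ N φ, p ∈ N ∧ S.LocG ε (2 * R) N φ := fun p hp =>
    h R (hR.trans (min_le_left _ _)) p.1 p.2 hp.2.le hp.1
  have k1 : ∀ N φ, S.LocG ε (2 * R) N φ → ∀ p ∈ N, p ∈ S.Om R D → ∀ w ∈ ball (0 : E) (2 * R),
      S.gr (2 * R) p.1 (S.ep p.2) w = φ p w := by
    rintro N φ a1 p hp ⟨⟨z, hz, e⟩, -⟩ w hw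
    exact a1.gr_eq hp hw (a1.norm_lt hε' hp le_rfl hz (congrArg Prod.snd e) hw)
  refine ⟨ho, JC.of_local (ho.prod isOpen_ball) fun u hu => ?_, fun p hp w hw => ?_,
    fun p hp w hw => ?_, fun p hp q hq e => ?_⟩
  · obtain ⟨N, φ, a1, a2⟩ := k0 _ hu.1
    exact ⟨(N ∩ S.Om R D) ×ˢ ball 0 (2 * R), ⟨⟨a1, hu.1⟩, hu.2⟩,
      (a2.jc.mono ((a2.isOpen.inter ho).prod isOpen_ball)
        (prod_mono inter_subset_left subset_rfl)).congr fun v hv =>
          k1 N φ a2 _ hv.1.1 hv.1.2 _ hv.2⟩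
  · obtain ⟨N, φ, a1, a2⟩ := k0 _ hp
    rw [k1 N φ a2 p a1 hp w hw]
    exact a2.on p a1 w hw
  · obtain ⟨N, φ, a1, a2⟩ := k0 _ hp
    have : S.gr (2 * R) p.1 (S.ep p.2) =ᶠ[𝓝 w] φ p := by
      filter_upwards [isOpen_ball.mem_nhds hw] with v hv using k1 N φ a2 p a1 hp v hv
    rw [this.fderiv_eq]
    exact a2.slope p a1 w hw
  · obtain ⟨N, φ, a1, a2⟩ := k0 _ hp
    rw [k1 N φ a2 p a1 hp _ (mem_ball_zero_iff.2
      ((S.norm_pS_le q).trans_lt (mem_ball_zero_iff.1 hq)))]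
    exact a2.uniq p a1 q hq e

end Sys

end Vale.Agent.P207Z
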